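import Vale.Agent.P038.H558.LK
import Vale.Agent.P038.H139.NF

/-!
# Seymour's second neighbourhood conjecture: assembly

`H558.lk` (the left interiors of an outer equilibrium cost at most as much) together with the
inequality `w(N₁(N[X])) ≤ lam w(N₁(X))` (`H139.step3`) excludes the normal form for `lam < 1`.
-/

namespace Vale.Agent.P038.H802

open Finset

universe u

section Cut

variable {V : Type u} [Fintype V] [DecidableEq V]

/-- The outer pairs. -/
def OF (N : V → Finset V) (p : (V → Finset V) × (V → Finset V)) : Prop :=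
  (∀ a, N a ⊆ p.1 a) ∧ (∀ x, N x ⊆ p.2 x) ∧ ∀ a x, x ∈ p.1 a → a ∈ p.2 x → a = x

/-- The cost of a pair of families. -/
noncomputable def JJ (N : V → Finset V) (w : V → ℝ) (p : (V → Finset V) × (V → Finset V)) : ℝ :=
  ∑ a, w a * H558.cost N w (p.1 a) + ∑ x, w x * H558.cost N w (p.2 x)

theorem sum_upd (f : Finset V → ℝ) (w : V → ℝ) (B : V → Finset V) (a : V) (R : Finset V) :
    ∑ a', w a' * f (Function.update B a R a') = ∑ a', w a' * f (B a') + w a * (f R - f (B a)) := by
  have h : ∀ a', w a' * f (Function.update B a R a') =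
      w a' * f (B a') + if a' = a then w a * (f R - f (B a)) else 0 := by
    intro a'
    by_cases h : a' = a
    · subst h
      rw [Function.update_self, if_pos rfl]
      ring
    · rw [Function.update_of_ne h, if_neg h, add_zero]
  simp only [h, Finset.sum_add_distrib, Finset.sum_ite_eq', Finset.mem_univ, if_true]

theorem cost_nonneg {N : V → Finset V} (hN : ∀ a, a ∈ N a) {w : V → ℝ} (hw : ∀ a, 0 ≤ w a)
    (R : Finset V) : 0 ≤ H558.cost N w R := by
  unfold H558.cost
  have : ∑ x ∈ R, w x ≤ ∑ x ∈ H558.cl N R, w x :=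
    Finset.sum_le_sum_of_subset_of_nonneg (fun x hx => H558.mem_cl.2 ⟨x, hx, hN x⟩)
      fun x _ _ => hw x
  linarith

/-- An optimal outer pair is an equilibrium. -/
theorem exists_equi {N : V → Finset V} (ho : ∀ a b, b ∈ N a → a ∈ N b → a = b) {w : V → ℝ}
    (hw : ∀ a, 0 < w a) :
    ∃ B C, H558.Equi N w w B C ∧ ∀ p, OF N p → JJ N w (B, C) ≤ JJ N w p := by
  obtain ⟨⟨B, C⟩, ⟨hB, hC, hd⟩, hmin⟩ := Set.exists_min_image
    {p : (V → Finset V) × (V → Finset V) | OF N p} (JJ N w) (Set.toFinite _)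
    ⟨(N, N), fun _ => Finset.Subset.refl _, fun _ => Finset.Subset.refl _,
      fun a x h1 h2 => ho a x h1 h2⟩
  simp only at hB hC hd
  refine ⟨B, C, ⟨hB, hC, hd, ?_, ?_⟩, fun p hp => hmin p hp⟩
  · intro a R hR hR'
    have h := hmin (Function.update B a R, C) ⟨?_, hC, ?_⟩
    · unfold JJ at h
      simp only at h
      rw [sum_upd] at h
      have h2 : 0 ≤ w a * (H558.cost N w R - H558.cost N w (B a)) := by linarith
      have h3 := (mul_nonneg_iff_of_pos_left (hw a)).1 h2
      linarith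
    · intro a'
      by_cases h : a' = a
      · subst h; simpa using hR
      · simpa [Function.update_of_ne h] using hB a'
    · intro a' x hx
      by_cases h : a' = a
      · subst h
        simp only [Function.update_self] at hx
        exact hR' x hx
      · simp only [Function.update_of_ne h] at hx
        exact hd a' x hx
  · intro x R hR hR'
    have h := hmin (B, Function.update C x R) ⟨hB, ?_, ?_⟩
    · unfold JJ at h
      simp only at h
      rw [sum_upd] at h
      have h2 : 0 ≤ w x * (H558.cost N w R - H558.cost N w (C x)) := by linarith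
      have h3 := (mul_nonneg_iff_of_pos_left (hw x)).1 h2
      linarith
    · intro a'
      by_cases h : a' = x
      · subst h; simpa using hR
      · simpa [Function.update_of_ne h] using hC a'
    · intro a x' hx ha
      by_cases h : x' = x
      · subst h
        simp only [Function.update_self] at ha
        exact hR' a ha hx
      · simp only [Function.update_of_ne h] at ha
        exact hd a x' hx ha

/-- If `cost (N[X]) ≤ lam cost X` for all `X` with `lam < 1`, then the rows of an optimal outer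
pair are closed. -/
theorem closed_rows {N : V → Finset V} (hN : ∀ a, a ∈ N a)
    (ho : ∀ a b, b ∈ N a → a ∈ N b → a = b) {w : V → ℝ} (hw : ∀ a, 0 < w a) {lam : ℝ}
    (hl0 : 0 ≤ lam) (hl : lam < 1)
    (hG : ∀ X : Finset V, H558.cost N w (H558.cl N X) ≤ lam * H558.cost N w X) :
    ∃ B : V → Finset V, (∀ a, a ∈ B a) ∧ (∀ a, H558.cl N (B a) = B a) ∧
      ∀ a x, x ∈ B a → a ∈ N x → a = x := by
  have hw' : ∀ a, 0 ≤ w a := fun a => (hw a).le
  obtain ⟨B, C, hE, hmin⟩ := exists_equi ho hw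
  obtain ⟨hX, hY, hXY⟩ := H558.inner_feasible hN ho hE
  have hlk := H558.lk hN ho hw' hw' hE
  set X := H558.li N B with hXd
  set Y := H558.li N C with hYd
  have hOF : OF N (fun a => H558.cl N (X a), fun a => H558.cl N (Y a)) := by
    refine ⟨fun a x hx => H558.mem_cl.2 ⟨a, hX a, hx⟩, fun a x hx => H558.mem_cl.2 ⟨a, hY a, hx⟩,
      fun a x h1 h2 => hXY a x h1 h2⟩
  have h1 := hmin _ hOF
  have h2 : JJ N w (fun a => H558.cl N (X a), fun a => H558.cl N (Y a)) ≤
      lam * (∑ a, w a * H558.cost N w (X a) + ∑ x, w x * H558.cost N w (Y x)) := by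
    unfold JJ
    rw [mul_add, Finset.mul_sum, Finset.mul_sum]
    refine add_le_add (Finset.sum_le_sum fun a _ => ?_) (Finset.sum_le_sum fun a _ => ?_)
    · have := mul_le_mul_of_nonneg_left (hG (X a)) (hw' a)
      linarith
    · have := mul_le_mul_of_nonneg_left (hG (Y a)) (hw' a)
      linarith
  have h3 : JJ N w (B, C) = ∑ a, w a * H558.cost N w (B a) + ∑ x, w x * H558.cost N w (C x) := rfl
  have h4 : JJ N w (B, C) ≤ lam * JJ N w (B, C) := by
    have h5 := mul_le_mul_of_nonneg_left hlk hl0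
    rw [h3] at h1 ⊢
    exact (h1.trans h2).trans h5
  have h5 : 0 ≤ ∑ x, w x * H558.cost N w (C x) :=
    Finset.sum_nonneg fun x _ => mul_nonneg (hw' x) (cost_nonneg hN hw' _)
  have h6 : 0 ≤ ∑ x, w x * H558.cost N w (B x) :=
    Finset.sum_nonneg fun x _ => mul_nonneg (hw' x) (cost_nonneg hN hw' _)
  have h7 : ∑ x, w x * H558.cost N w (B x) = 0 := by
    rw [h3] at h4
    nlinarith
  refine ⟨B, fun a => hE.hB a (hN a), fun a => ?_, fun a x hx ha => hE.disj a x hx (hE.hC x ha)⟩
  have h8 := (Finset.sum_eq_zero_iff_of_nonneg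
    (fun x _ => mul_nonneg (hw' x) (cost_nonneg hN hw' (B x)))).1 h7 a (Finset.mem_univ a)
  have h9 : H558.cost N w (B a) = 0 := by
    rcases mul_eq_zero.1 h8 with h | h
    · exact absurd h (hw a).ne'
    · exact h
  apply Finset.Subset.antisymm
  · intro x hx
    by_contra hxB
    have hsub : B a ⊆ H558.cl N (B a) := fun y hy => H558.mem_cl.2 ⟨y, hy, hN y⟩
    have h10 : ∑ y ∈ B a, w y < ∑ y ∈ H558.cl N (B a), w y :=
      Finset.sum_lt_sum_of_subset hsub hx hxB (hw x) fun y _ _ => hw' y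
    unfold H558.cost at h9
    linarith
  · exact fun y hy => H558.mem_cl.2 ⟨y, hy, hN y⟩

end Cut

section Graph

variable {V : Type u} [Fintype V]

open Vale.Agent.P038.H139

/-- Closed out-neighbourhoods. -/
noncomputable def Nc (D : OGraph V) (a : V) : Finset V := by
  classical exact insert a (N1 D a)

theorem mem_Nc {D : OGraph V} {a x : V} : x ∈ Nc D a ↔ x = a ∨ D.arc a x := by
  classical
  unfold Nc
  rw [Finset.mem_insert, mem_N1]

theorem cost_eq [DecidableEq V] (D : OGraph V) (w : V → ℝ) (X : Finset V) :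
    H558.cost (Nc D) w X = W w (outS D X \ X) := by
  unfold H558.cost
  have e : H558.cl (Nc D) X = X ∪ (outS D X \ X) := by
    ext z
    rw [H558.mem_cl]
    simp only [mem_Nc, Finset.mem_union, Finset.mem_sdiff, mem_outS]
    constructor
    · rintro ⟨y, hy, rfl | h⟩
      · exact Or.inl hy
      · by_cases hz : z ∈ X
        · exact Or.inl hz
        · exact Or.inr ⟨⟨y, hy, h⟩, hz⟩
    · rintro (h | ⟨⟨y, hy, h⟩, _⟩)
      · exact ⟨z, h, Or.inl rfl⟩
      · exact ⟨y, hy, Or.inr h⟩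
  rw [e, Finset.sum_union Finset.disjoint_sdiff]
  unfold W
  ring

theorem G_lam [DecidableEq V] {lam : ℝ} {D : OGraph V} {w : V → ℝ} (h : Opt lam D w)
    (X : Finset V) :
    H558.cost (Nc D) w (H558.cl (Nc D) X) ≤ lam * H558.cost (Nc D) w X := by
  have h3 := step3 h X
  rw [cost_eq, cost_eq]
  refine le_trans (W_mono h.nonneg ?_) h3
  intro z hz
  obtain ⟨hz1, hz2⟩ := Finset.mem_sdiff.1 hz
  obtain ⟨y, hy, hyz⟩ := mem_outS.1 hz1
  have hz3 : ∀ t ∈ X, z ≠ t ∧ ¬ D.arc t z := by
    intro t ht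
    constructor
    · rintro rfl
      exact hz2 (H558.mem_cl.2 ⟨z, ht, mem_Nc.2 (Or.inl rfl)⟩)
    · intro h
      exact hz2 (H558.mem_cl.2 ⟨t, ht, mem_Nc.2 (Or.inr h)⟩)
  have hzX : z ∉ X := fun h => (hz3 z h).1 rfl
  obtain ⟨t, ht, hty⟩ := H558.mem_cl.1 hy
  rcases mem_Nc.1 hty with rfl | hty
  · exact absurd hyz (hz3 y ht).2
  · have hyX : y ∉ X := fun h => (hz3 y h).2 hyz
    refine Finset.mem_sdiff.2 ⟨mem_outS.2 ⟨y, Finset.mem_sdiff.2 ⟨mem_outS.2 ⟨t, ht, hty⟩, hyX⟩,
      hyz⟩, ?_⟩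
    intro h
    rcases Finset.mem_union.1 h with h | h
    · exact hzX h
    · obtain ⟨t', ht', h'⟩ := mem_outS.1 (Finset.mem_sdiff.1 h).1
      exact (hz3 t' ht').2 h'

/-- A normal form has no proper nonempty closed set. -/
theorem no_closed {lam : ℝ} {D : OGraph V} {w : V → ℝ} (h : NF lam D w) (S : Finset V) (a v : V)
    (ha : a ∈ S) (hv : v ∉ S) (hS : ∀ x ∈ S, ∀ y, D.arc x y → y ∈ S) : False := by
  classical
  have : Nonempty {x // x ∈ S} := ⟨⟨a, ha⟩⟩
  have hcard : Fintype.card {x // x ∈ S} < Fintype.card V :=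
    Fintype.card_subtype_lt (x := v) hv
  set D' : OGraph {x // x ∈ S} :=
    { arc := fun a b => D.arc a.1 b.1
      loopless := fun a => D.loopless a.1
      asymm := fun a b => D.asymm a.1 b.1 } with hD'
  obtain ⟨v, hv⟩ := h.ind {x // x ∈ S} hcard D' (fun v => w v.1) (fun v => h.nonneg v.1)
  have h1 : W (fun v : {x // x ∈ S} => w v.1) (N1 D' v) = W w (N1 D v.1) := by
    have e : W (fun v : {x // x ∈ S} => w v.1) (N1 D' v) =
        ∑ z ∈ (N1 D' v).map (Function.Embedding.subtype _), w z := by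
      rw [Finset.sum_map]; rfl
    rw [e]
    refine Finset.sum_congr ?_ fun _ _ => rfl
    ext z
    constructor
    · intro hz
      obtain ⟨z', hz', rfl⟩ := Finset.mem_map.1 hz
      have h1 : D'.arc v z' := mem_N1.1 hz'
      exact mem_N1.2 h1
    · intro hz
      have h1 : D.arc v.1 z := mem_N1.1 hz
      have h2 : (⟨z, hS v.1 v.2 z h1⟩ : {x // x ∈ S}) ∈ N1 D' v := mem_N1.2 h1
      exact Finset.mem_map.2 ⟨⟨z, hS v.1 v.2 z h1⟩, h2, rfl⟩
  have h2 : W (fun v : {x // x ∈ S} => w v.1) (N2 D' v) ≤ W w (N2 D v.1) := by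
    have e : W (fun v : {x // x ∈ S} => w v.1) (N2 D' v) =
        ∑ z ∈ (N2 D' v).map (Function.Embedding.subtype _), w z := by
      rw [Finset.sum_map]; rfl
    rw [e]
    refine Finset.sum_le_sum_of_subset_of_nonneg ?_ fun z _ _ => h.nonneg z
    intro z hz
    obtain ⟨z', hz', rfl⟩ := Finset.mem_map.1 hz
    obtain ⟨h3, h4, m, h5, h6⟩ := mem_N2.1 hz'
    exact mem_N2.2 ⟨fun h => h3 (Subtype.ext h), h4, m.1, h5, h6⟩
  have h3 := h.posF v.1
  unfold Fw at h3 hv
  rw [h1] at hv
  linarith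

/-- There is no normal form for `lam < 1`. -/
theorem no_nf [Nonempty V] {lam : ℝ} (hl : lam < 1) (D : OGraph V) (w : V → ℝ) :
    ¬ NF lam D w := by
  classical
  intro h
  obtain ⟨B, hB1, hB2, hB3⟩ := closed_rows (N := Nc D) (fun a => mem_Nc.2 (Or.inl rfl))
    (by
      intro a b hb ha
      rcases mem_Nc.1 hb with rfl | hb
      · rfl
      · rcases mem_Nc.1 ha with rfl | ha
        · rfl
        · exact absurd ha (D.asymm _ _ hb))
    h.pos h.lam_nonneg hl (G_lam h.toOpt)
  obtain ⟨v⟩ := ‹Nonempty V›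
  have h1 := h.posF v
  have h2 : ∃ a, D.arc v a := by
    by_contra hcon
    push Not at hcon
    have e : N1 D v = ∅ := by
      rw [Finset.eq_empty_iff_forall_notMem]
      intro a ha
      exact hcon a (mem_N1.1 ha)
    unfold Fw at h1
    rw [e] at h1
    have h3 : 0 ≤ W w (N2 D v) := W_nonneg h.nonneg _
    simp only [W, Finset.sum_empty, mul_zero] at h1 h3
    linarith
  obtain ⟨a, hva⟩ := h2
  refine no_closed h (B a) a v (hB1 a) ?_ ?_
  · intro hv
    have := hB3 a v hv (mem_Nc.2 (Or.inr hva))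
    subst this
    exact D.loopless _ hva
  · intro x hx y hxy
    rw [← hB2 a]
    exact H558.mem_cl.2 ⟨x, hx, mem_Nc.2 (Or.inr hxy)⟩

/-- **Seymour's second neighbourhood conjecture**, weighted form. -/
theorem snc_weighted [Nonempty V] (D : OGraph V) (w : V → ℝ) (hw : ∀ v, 0 ≤ w v) :
    ∃ v, ∑ u ∈ N1 D v, w u ≤ ∑ u ∈ N2 D v, w u := by
  by_contra hcon
  push Not at hcon
  have hpos : ∀ v, 0 < ∑ u ∈ N1 D v, w u := fun v =>
    lt_of_le_of_lt (Finset.sum_nonneg fun u _ => hw u) (hcon v)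
  obtain ⟨x0, hx0⟩ := Finite.exists_max
    (fun v => (∑ u ∈ N2 D v, w u) / (∑ u ∈ N1 D v, w u))
  set r := (∑ u ∈ N2 D x0, w u) / (∑ u ∈ N1 D x0, w u) with hr
  have hr1 : r < 1 := (div_lt_one (hpos x0)).2 (hcon x0)
  have hr0 : 0 ≤ r := div_nonneg (Finset.sum_nonneg fun u _ => hw u) (hpos x0).le
  obtain ⟨v, hv⟩ := snc_of_noNF (lam := (r + 1) / 2) (by linarith)
    (fun V _ _ D w => no_nf (by linarith) D w) D w hw
  have h1 : (∑ u ∈ N2 D v, w u) / (∑ u ∈ N1 D v, w u) ≤ r := hx0 v
  rw [div_le_iff₀ (hpos v)] at h1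
  have h2 : r * ∑ u ∈ N1 D v, w u < (r + 1) / 2 * ∑ u ∈ N1 D v, w u :=
    mul_lt_mul_of_pos_right (by linarith) (hpos v)
  linarith

/-- **Seymour's second neighbourhood conjecture.** -/
theorem snc [Nonempty V] (D : OGraph V) : ∃ v, (N1 D v).card ≤ (N2 D v).card := by
  obtain ⟨v, hv⟩ := snc_weighted D (fun _ => 1) (fun _ => zero_le_one)
  refine ⟨v, ?_⟩
  simp only [Finset.sum_const, nsmul_eq_mul, mul_one] at hv
  exact_mod_cast hv

end Graph

end Vale.Agent.P038.H802
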