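import Vale.Agent.P038.H139.NF

/-!
# P038: `(RE)` implies the second neighbourhood conjecture

In the normal form there must be bad arcs `u → x` (`x ∈ R(q)` for every in-neighbour `q` of `u`);
hence there is a pair `q, x` with `x ∈ R(q)` at distance two from `q`.
-/

namespace Vale.Agent.P038.H802

open Finset Vale.Agent.P038 Vale.Agent.P038.H139

universe u

variable {V : Type u} [Fintype V]

/-- The bad arcs carry at least the weight `∑ w` (`lam = 1`). -/
theorem bad_weight {D : OGraph V} {w : V → ℝ} (h : Opt 1 D w) :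
    ∑ u, w u ≤ ∑ u, w u * W w (Hb D u) := by
  classical
  have hswap : ∀ S : V → Finset V, ∑ x, w x * W w (Finset.univ.filter fun u => x ∈ S u)
      = ∑ u, w u * W w (S u) := by
    intro S
    have e1 : ∀ x, w x * W w (Finset.univ.filter fun u => x ∈ S u) =
        ∑ u, if x ∈ S u then w x * w u else 0 := by
      intro x
      unfold W
      rw [Finset.sum_filter, Finset.mul_sum]
      refine Finset.sum_congr rfl fun u _ => ?_
      split_ifs <;> simp
    have e2 : ∀ u, w u * W w (S u) = ∑ x, if x ∈ S u then w x * w u else 0 := by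
      intro u
      unfold W
      rw [← Finset.sum_filter, Finset.mul_sum]
      have : (Finset.univ.filter fun x => x ∈ S u) = S u := by
        ext x
        simp
      rw [this]
      exact Finset.sum_congr rfl fun x _ => mul_comm _ _
    rw [Finset.sum_congr rfl fun x _ => e1 x, Finset.sum_congr rfl fun u _ => e2 u,
      Finset.sum_comm]
  have h1 : ∑ u, w u * W w (N1 D u) ≤
      ∑ u, w u * W w (Hb D u) + ∑ u, w u * W w (N2 D u) := by
    rw [← hswap (N1 D), ← hswap (N2 D), ← hswap (Hb D), ← Finset.sum_add_distrib]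
    refine Finset.sum_le_sum fun x _ => ?_
    have h2 := mul_le_mul_of_nonneg_left (step7 h x) (h.nonneg x)
    linarith
  have h2 : ∑ u, w u * W w (N1 D u) - ∑ u, w u * W w (N2 D u) = ∑ u, w u := by
    rw [← Finset.sum_sub_distrib]
    refine Finset.sum_congr rfl fun u _ => ?_
    have := h.one u
    unfold Fw at this
    linear_combination w u * this
  linarith

/-- There is a bad arc. -/
theorem exists_bad [Nonempty V] {D : OGraph V} {w : V → ℝ} (h : Opt 1 D w) :
    ∃ u x, D.arc u x ∧ ∀ q, D.arc q u → InR D q x := by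
  by_contra hcon
  push Not at hcon
  have h1 : ∀ u, Hb D u = ∅ := by
    intro u
    rw [Finset.eq_empty_iff_forall_notMem]
    intro x hx
    obtain ⟨hux, hq⟩ := mem_Hb.1 hx
    obtain ⟨q, hqu, hqx⟩ := hcon u x hux
    exact hqx (hq q hqu)
  have h2 := bad_weight h
  have h3 : 0 < ∑ u, w u := Finset.sum_pos (fun v _ => h.pos v) Finset.univ_nonempty
  simp only [h1, W, Finset.sum_empty, mul_zero, Finset.sum_const_zero] at h2
  linarith

/-- There is a bad arc `u → x` and an in-neighbour `q` of `u`, with `x` not an out-neighbour of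
`q`: so `x ∈ R(q)` and `x` is at distance two from `q`. -/
theorem exists_bad_pair [Nonempty V] {D : OGraph V} {w : V → ℝ} (h : Opt 1 D w) :
    ∃ u x q, D.arc u x ∧ (∀ s, D.arc s u → InR D s x) ∧ D.arc q u ∧ ¬ D.arc q x ∧
      x ∈ N2 D q := by
  obtain ⟨u, x, hux, hR⟩ := exists_bad h
  have h1 := h.noNest u x hux
  push Not at h1
  obtain ⟨q, hqu, hqx⟩ := h1
  refine ⟨u, x, q, hux, hR, hqu, hqx, mem_N2.2 ⟨?_, hqx, u, hqu, hux⟩⟩
  rintro rfl
  exact D.asymm _ _ hux hqu

/-- **(RE)**, for pairs at distance two, excludes the normal form. -/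
theorem re_imp [Nonempty V] {D : OGraph V} {w : V → ℝ} (h : NF 1 D w)
    (hRE : ∀ q x, InR D q x → x ∈ N2 D q → False) : False := by
  obtain ⟨u, x, q, _, hR, hqu, _, hx⟩ := exists_bad_pair h.toOpt
  exact hRE q x (hR q hqu) hx

/-- **(RE)** implies the (weighted) second neighbourhood conjecture. `P D w` may be any property
which can be added to the normal form (for example the minimal or the maximal number of arcs). -/
theorem snc_of_re (P : ∀ {V : Type u} [Fintype V], OGraph V → (V → ℝ) → Prop)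
    (hP : ∀ {V : Type u} [Fintype V] [Nonempty V] (D : OGraph V) (w : V → ℝ), NF 1 D w →
      ∃ (D' : OGraph V) (w' : V → ℝ), NF 1 D' w' ∧ P D' w')
    (hRE : ∀ {V : Type u} [Fintype V] [Nonempty V] (D : OGraph V) (w : V → ℝ), NF 1 D w → P D w →
      ∀ q x, InR D q x → x ∈ N2 D q → False)
    {V : Type u} [Fintype V] [Nonempty V] (D : OGraph V) (w : V → ℝ) (hw : ∀ v, 0 ≤ w v) :
    ∃ v, ∑ u ∈ N1 D v, w u ≤ ∑ u ∈ N2 D v, w u := by
  obtain ⟨v, hv⟩ := snc_of_noNF (lam := 1) zero_le_one (by
    intro V _ _ D w h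
    obtain ⟨D', w', h', hP'⟩ := hP D w h
    exact re_imp h' (hRE D' w' h' hP')) D w hw
  exact ⟨v, by linarith⟩

/-- The same over the normal form with the fewest arcs. -/
theorem snc_of_re_min
    (hRE : ∀ {V : Type u} [Fintype V] [Nonempty V] (D : OGraph V) (w : V → ℝ), NFmin 1 D w →
      ∀ q x, InR D q x → x ∈ N2 D q → False)
    {V : Type u} [Fintype V] [Nonempty V] (D : OGraph V) (w : V → ℝ) (hw : ∀ v, 0 ≤ w v) :
    ∃ v, ∑ u ∈ N1 D v, w u ≤ ∑ u ∈ N2 D v, w u := by
  obtain ⟨v, hv⟩ := snc_of_noNF (lam := 1) zero_le_one (by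
    intro V _ _ D w h
    obtain ⟨D', w', h'⟩ := exists_nfmin h
    exact re_imp h'.toNF (hRE D' w' h')) D w hw
  exact ⟨v, by linarith⟩

/-- The same over the normal form with the most arcs. -/
theorem snc_of_re_max
    (hRE : ∀ {V : Type u} [Fintype V] [Nonempty V] (D : OGraph V) (w : V → ℝ), NFmax 1 D w →
      ∀ q x, InR D q x → x ∈ N2 D q → False)
    {V : Type u} [Fintype V] [Nonempty V] (D : OGraph V) (w : V → ℝ) (hw : ∀ v, 0 ≤ w v) :
    ∃ v, ∑ u ∈ N1 D v, w u ≤ ∑ u ∈ N2 D v, w u := by
  obtain ⟨v, hv⟩ := snc_of_noNF (lam := 1) zero_le_one (by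
    intro V _ _ D w h
    obtain ⟨D', w', h'⟩ := exists_nfmax h
    exact re_imp h'.toNF (hRE D' w' h')) D w hw
  exact ⟨v, by linarith⟩

end Vale.Agent.P038.H802
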